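import Mathlib
import Vale.Agent.P129.Generated

/-!
A Banach space generated by fewer than `𝔭` weakly compact sets has a separable infinite-dimensional
quotient, where `𝔭` is the pseudo-intersection number.
-/

namespace Vale.Agent.Results.P129.WeaklyCompactlyMany

open Vale.Agent.P129 TopologicalSpace Cardinal

universe u v

theorem result :
    ℵ₀ < pNumber ∧
    ∀ {𝕜 : Type v} [RCLike 𝕜] {X : Type u} [NormedAddCommGroup X] [NormedSpace 𝕜 X]
      [CompleteSpace X], ¬ FiniteDimensional 𝕜 X →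
      ∀ 𝒦 : Set (Set X), #𝒦 < Cardinal.lift.{u} pNumber →
      (∀ K ∈ 𝒦, IsCompact (toWeakSpace 𝕜 X '' K)) →
      (Submodule.span 𝕜 (⋃₀ 𝒦)).topologicalClosure = ⊤ →
      ∃ M : Submodule 𝕜 X, IsClosed (M : Set X) ∧ SeparableSpace (X ⧸ M) ∧
        ¬ FiniteDimensional 𝕜 (X ⧸ M) :=
  ⟨aleph0_lt_pNumber, fun hinf 𝒦 hcard hK hdense => hasSQ_of_generated hinf 𝒦 hcard hK hdense⟩

end Vale.Agent.Results.P129.WeaklyCompactlyMany
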